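import Vale.Agent.P181.SEP.Defs

set_option autoImplicit false

/-! # P181, SEP (T2): the sign of the mixed permutations -/

namespace Vale.Agent.P181.SEP.H964

open Finset

variable {a : ℕ}

/-- the sign of a permutation which preserves `A`, and of a mixture of two of them -/
theorem sign_mix (A : Fin a → Bool) (Z W R : Equiv.Perm (Fin a)) (hZ : ∀ x, A (Z x) = A x)
    (hW : ∀ x, A (W x) = A x) (hR : ∀ x, R x = if A x = true then W x else Z x) :
    Equiv.Perm.sign R =
      Equiv.Perm.sign (W.subtypePerm (p := fun x => A x = true) (fun x => by rw [hW])) *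
        Equiv.Perm.sign (Z.subtypePerm (p := fun x => ¬ A x = true) (fun x => by rw [hZ])) := by
  rw [← Equiv.Perm.sign_subtypeCongr]
  congr 1
  ext x
  rw [hR, Equiv.Perm.subtypeCongr.apply]
  by_cases h : A x = true
  · rw [if_pos h, dif_pos h]
    rfl
  · rw [if_neg h, dif_neg h]
    rfl

theorem sign_core (q : ℕ) (X : Fin (q + 1) → Equiv.Perm (Fin a)) (A : Fin a → Bool)
    (ρ : Fin (q + 1) → Equiv.Perm (Fin a))
    (h1 : ∀ j p, A ((X j).symm (X 0 p)) = A p)
    (h2 : ∀ u p, ρ u p = X (u - (if A p = true then 1 else 0)) p) :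
    ∏ u, Equiv.Perm.sign (ρ u) = ∏ j, Equiv.Perm.sign (X j) := by
  let Z : Fin (q + 1) → Equiv.Perm (Fin a) := fun u => (X 0)⁻¹ * X u
  have hZ : ∀ u x, A (Z u x) = A x := by
    intro u x
    have h3 := h1 u (Z u x)
    have h4 : (X u).symm (X 0 (Z u x)) = x := by
      change (X u).symm (X 0 ((X 0).symm (X u x))) = x
      rw [Equiv.apply_symm_apply, Equiv.symm_apply_apply]
    rw [h4] at h3
    exact h3.symm
  let sT : Fin (q + 1) → ℤˣ := fun u =>
    Equiv.Perm.sign ((Z u).subtypePerm (p := fun x => A x = true) (fun x => by rw [hZ]))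
  let sF : Fin (q + 1) → ℤˣ := fun u =>
    Equiv.Perm.sign ((Z u).subtypePerm (p := fun x => ¬ A x = true) (fun x => by rw [hZ]))
  have hX : ∀ u, Equiv.Perm.sign (X u) = Equiv.Perm.sign (X 0) * (sT u * sF u) := by
    intro u
    have h5 : X u = X 0 * Z u := by
      change X u = X 0 * ((X 0)⁻¹ * X u)
      group
    rw [h5, Equiv.Perm.sign_mul]
    congr 1
    exact sign_mix A (Z u) (Z u) (Z u) (hZ u) (hZ u) fun x => by rw [ite_self]
  have hρ : ∀ u, Equiv.Perm.sign (ρ u) = Equiv.Perm.sign (X 0) * (sT (u - 1) * sF u) := by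
    intro u
    have h5 : ρ u = X 0 * ((X 0)⁻¹ * ρ u) := by group
    rw [h5, Equiv.Perm.sign_mul]
    congr 1
    refine sign_mix A (Z u) (Z (u - 1)) _ (hZ u) (hZ (u - 1)) fun x => ?_
    change (X 0).symm (ρ u x) = _
    rw [h2]
    by_cases h : A x = true
    · rw [if_pos h, if_pos h]
      rfl
    · rw [if_neg h, if_neg h, sub_zero]
      rfl
  rw [Finset.prod_congr rfl fun u _ => hρ u, Finset.prod_congr rfl fun u _ => hX u,
    Finset.prod_mul_distrib, Finset.prod_mul_distrib, Finset.prod_mul_distrib,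
    Finset.prod_mul_distrib]
  congr 2
  exact Fintype.prod_equiv (Equiv.subRight (1 : Fin (q + 1))) _ _ fun u => rfl

/-- **(T2)** -/
theorem sign : Vale.Agent.P181.SEP.SignStmt := by
  intro a q X A ρ h1 h2
  have h := congrArg (fun z : ℤˣ => ((z : ℤ) : ℂ)) (sign_core q X A ρ h1 h2)
  have hp : ∀ s : Fin (q + 1) → ℤˣ, (((∏ u, s u : ℤˣ) : ℤ) : ℂ) = ∏ u, ((s u : ℤ) : ℂ) := by
    intro s
    rw [Units.coe_prod, Int.cast_prod]
  simpa only [hp] using h

end Vale.Agent.P181.SEP.H964
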